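import Crest.Agent.R163.Q3.D.P5.S0
import Crest.Agent.R163.Q3.D.P5.H

set_option autoImplicit false
set_option maxRecDepth 100000
set_option linter.all false
set_option Elab.async false

namespace Crest.Agent.R163.P5

theorem p0_3_8 : Ok2 par f3 ((((Box3.unit.l 1).r 0).l 1).l 0) (selB2 0 (selB2 0 (selB2 0 (selB2 0 C0 5923061460449794865967038894116487550729910592144190631086539375865944342527) 124928) 79) 24) :=
  Ok2.run hw hf3 ⟨394,19,19,16,13⟩ 58
    (.part 29 (.chk false 0) (.split 2 (.chk false 0) (.split 2 (.chk false 0) (.split 0 (.chk false 0) (.chk false 0)))))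
    (by decide +kernel)

theorem p0_3_9 : Ok2 par f3 ((((Box3.unit.l 1).r 0).l 1).r 0) (selB2 0 (selB2 0 (selB2 0 (selB2 0 C0 5923061460449794865967038894116487550729910592144190631086539375865944342527) 124928) 79) 24) :=
  Ok2.run hw hf3 ⟨400,19,19,16,13⟩ 58
    (.part 15 (.chk false 0) (.split 1 (.chk false 0) (.split 2 (.split 0 (.chk false 0) (.chk false 0)) (.chk false 0))))
    (by decide +kernel)

theorem p0_3_10 : Ok2 par f3 (((Box3.unit.l 1).r 0).l 1) (selB2 1 (selB2 0 (selB2 0 (selB2 0 C0 5923061460449794865967038894116487550729910592144190631086539375865944342527) 124928) 79) 24) :=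
  Ok2.run hw hf3 ⟨321,19,19,16,13⟩ 58
    (.chk false 0)
    (by decide +kernel)

theorem p0_3_11 : Ok2 par f3 (((((Box3.unit.l 1).r 0).r 1).r 2).l 0) (selB2 0 (selB2 0 (selB2 0 (selB2 0 C0 5923061460449794865967038894116487550729910592144190631086539375865944342527) 124928) 79) 99) :=
  Ok2.run hw hf3 ⟨347,19,19,16,13⟩ 58
    (.chk false 0)
    (by decide +kernel)

theorem p0_3_12 : Ok2 par f3 (((((Box3.unit.l 1).r 0).r 1).r 2).r 0) (selB2 0 (selB2 0 (selB2 0 (selB2 0 C0 5923061460449794865967038894116487550729910592144190631086539375865944342527) 124928) 79) 99) :=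
  Ok2.run hw hf3 ⟨414,19,19,16,13⟩ 58
    (.part 6 (.chk false 0) (.split 1 (.split 2 (.chk false 0) (.split 0 (.chk false 0) (.chk false 0))) (.chk false 0)))
    (by decide +kernel)

theorem p0_3_13 : Ok2 par f3 ((((Box3.unit.l 1).r 0).r 1).l 2) (selB2 0 (selB2 0 (selB2 0 (selB2 0 C0 5923061460449794865967038894116487550729910592144190631086539375865944342527) 124928) 79) 99) :=
  Ok2.run hw hf3 ⟨334,19,19,16,13⟩ 58
    (.chk false 0)
    (by decide +kernel)

theorem p0_3_14 : Ok2 par f3 (((Box3.unit.l 1).r 0).r 1) (selB2 1 (selB2 0 (selB2 0 (selB2 0 C0 5923061460449794865967038894116487550729910592144190631086539375865944342527) 124928) 79) 99) :=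
  Ok2.run hw hf3 ⟨312,19,19,16,13⟩ 58
    (.chk false 0)
    (by decide +kernel)

theorem p0_3_15 : Ok2 par f3 ((Box3.unit.l 1).r 0) (selB2 1 (selB2 0 (selB2 0 C0 5923061460449794865967038894116487550729910592144190631086539375865944342527) 124928) 79) :=
  Ok2.run hw hf3 ⟨299,19,19,16,13⟩ 58
    (.chk false 0)
    (by decide +kernel)

theorem p0_3_16 : Ok2 par f3 ((Box3.unit.l 1).l 0) (selB2 0 (selB2 0 C0 5923061460449794865967038894116487550729910592144190631086539375865944342527) 124928) :=
  Ok2.run hw hf3 ⟨343,19,19,16,13⟩ 58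
    (.part 4091 (.chk false 0) (.split 2 (.split 0 (.chk false 0) (.chk false 0)) (.chk false 0)))
    (by decide +kernel)

theorem p0_3_17 : Ok2 par f3 (Box3.unit.l 1) (selB2 1 (selB2 0 C0 5923061460449794865967038894116487550729910592144190631086539375865944342527) 124928) :=
  Ok2.run hw hf3 ⟨270,19,19,16,13⟩ 58
    (.chk false 0)
    (by decide +kernel)

theorem p0_3_18 : Ok2 par f3 (Box3.unit.r 1) (selB2 0 C0 5923061460449794865967038894116487550729910592144190631086539375865944342527) :=
  Ok2.run hw hf3 ⟨321,19,19,16,13⟩ 58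
    (.part 122367 (.chk false 0) (.split 0 (.chk false 0) (.part 1 (.chk false 0) (.split 1 (.chk false 0) (.chk false 0)))))
    (by decide +kernel)

theorem p0_4_0 : Ok2 par f4 Box3.unit (selB2 1 (selB2 1 C0 3618514004013830926707070530577888700831909627458760509721609714565822545919) 36028797018963967) :=
  Ok2.run hw hf4 ⟨240,19,19,13,13⟩ 58
    (.chk false 2048)
    (by decide +kernel)

theorem p0_4_1 : Ok2 par f4 Box3.unit (selB2 0 (selB2 1 C0 3618514004013830926707070530577888700831909627458760509721609714565822545919) 36028797018963967) :=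
  Ok2.run hw hf4 ⟨240,19,19,13,13⟩ 58
    (.chk false 0)
    (by decide +kernel)

theorem p0_4_2 : Ok2 par f4 (Box3.unit.l 1) (selB2 1 (selB2 1 (selB2 0 C0 3618514004013830926707070530577888700831909627458760509721609714565822545919) 88462781493080354749627725064079313677732) 72057594037927935) :=
  Ok2.run hw hf4 ⟨268,19,19,13,13⟩ 58
    (.chk false 2048)
    (by decide +kernel)

theorem p0_4_3 : Ok2 par f4 (Box3.unit.l 1) (selB2 0 (selB2 1 (selB2 0 C0 3618514004013830926707070530577888700831909627458760509721609714565822545919) 88462781493080354749627725064079313677732) 72057594037927935) :=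
  Ok2.run hw hf4 ⟨268,19,19,13,13⟩ 58
    (.chk false 0)
    (by decide +kernel)

theorem p0_4_4 : Ok2 par f4 ((((Box3.unit.l 1).l 0).l 1).l 2) (selB2 0 (selB2 0 (selB2 0 (selB2 0 C0 3618514004013830926707070530577888700831909627458760509721609714565822545919) 88462781493080354749627725064079313677732) 86015) 15986) :=
  Ok2.run hw hf4 ⟨378,19,19,13,13⟩ 58
    (.part 7 (.chk false 0) (.split 0 (.part 2 (.chk false 0) (.split 1 (.chk false 0) (.chk false 0))) (.chk false 0)))
    (by decide +kernel)

theorem p0_4_5 : Ok2 par f4 ((((Box3.unit.l 1).l 0).l 1).r 2) (selB2 0 (selB2 0 (selB2 0 (selB2 0 C0 3618514004013830926707070530577888700831909627458760509721609714565822545919) 88462781493080354749627725064079313677732) 86015) 15986) :=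
  Ok2.run hw hf4 ⟨392,19,19,13,13⟩ 58
    (.part 24 (.chk false 0) (.split 2 (.chk false 0) (.split 0 (.part 3 (.chk false 0) (.split 1 (.chk false 0) (.chk false 0))) (.chk false 0))))
    (by decide +kernel)

theorem p0_4_6 : Ok2 par f4 (((Box3.unit.l 1).l 0).l 1) (selB2 1 (selB2 0 (selB2 0 (selB2 0 C0 3618514004013830926707070530577888700831909627458760509721609714565822545919) 88462781493080354749627725064079313677732) 86015) 15986) :=
  Ok2.run hw hf4 ⟨319,19,19,13,13⟩ 58
    (.chk false 0)
    (by decide +kernel)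

theorem p0_4_7 : Ok2 par f4 (((((Box3.unit.l 1).l 0).r 1).l 1).l 2) (selB2 0 (selB2 0 (selB2 0 (selB2 0 (selB2 0 C0 3618514004013830926707070530577888700831909627458760509721609714565822545919) 88462781493080354749627725064079313677732) 86015) 1039) 460) :=
  Ok2.run hw hf4 ⟨419,19,19,13,13⟩ 58
    (.part 3 (.chk false 0) (.split 0 (.split 2 (.split 0 (.chk false 0) (.split 1 (.chk false 0) (.chk false 0))) (.chk false 0)) (.chk false 0)))
    (by decide +kernel)

theorem p0_4_8 : Ok2 par f4 (((((Box3.unit.l 1).l 0).r 1).l 1).r 2) (selB2 0 (selB2 0 (selB2 0 (selB2 0 (selB2 0 C0 3618514004013830926707070530577888700831909627458760509721609714565822545919) 88462781493080354749627725064079313677732) 86015) 1039) 460) :=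
  Ok2.run hw hf4 ⟨389,19,19,13,13⟩ 58
    (.part 12 (.chk false 0) (.split 0 (.part 2 (.chk false 0) (.split 1 (.chk false 0) (.chk false 0))) (.part 2 (.chk false 0) (.split 1 (.chk false 0) (.chk false 0)))))
    (by decide +kernel)

theorem p0_4_9 : Ok2 par f4 ((((Box3.unit.l 1).l 0).r 1).l 1) (selB2 1 (selB2 0 (selB2 0 (selB2 0 (selB2 0 C0 3618514004013830926707070530577888700831909627458760509721609714565822545919) 88462781493080354749627725064079313677732) 86015) 1039) 460) :=
  Ok2.run hw hf4 ⟨331,19,19,13,13⟩ 58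
    (.chk false 0)
    (by decide +kernel)

theorem p0_4_10 : Ok2 par f4 (((((Box3.unit.l 1).l 0).r 1).r 1).l 2) (selB2 1 (selB2 0 (selB2 0 (selB2 0 (selB2 0 (selB2 0 C0 3618514004013830926707070530577888700831909627458760509721609714565822545919) 88462781493080354749627725064079313677732) 86015) 1039) 35) 7) :=
  Ok2.run hw hf4 ⟨343,19,19,13,13⟩ 58
    (.chk false 0)
    (by decide +kernel)

theorem p0_4_11 : Ok2 par f4 (((((Box3.unit.l 1).l 0).r 1).r 1).l 2) (selB2 0 (selB2 0 (selB2 0 (selB2 0 (selB2 0 (selB2 0 C0 3618514004013830926707070530577888700831909627458760509721609714565822545919) 88462781493080354749627725064079313677732) 86015) 1039) 35) 7) :=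
  Ok2.run hw hf4 ⟨427,19,19,13,13⟩ 58
    (.split 0 (.part 5 (.chk false 0) (.split 2 (.split 2 (.split 0 (.chk false 0) (.split 1 (.chk false 0) (.chk false 0))) (.chk false 0)) (.chk false 0))) (.chk false 0))
    (by decide +kernel)


end Crest.Agent.R163.P5
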