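import Crest.Agent.R163.Q3.D.P5.S0
import Crest.Agent.R163.Q3.D.P5.H

set_option autoImplicit false
set_option maxRecDepth 100000
set_option linter.all false
set_option Elab.async false

namespace Crest.Agent.R163.P5

theorem p0_4_72 : Ok2 par f4 (((Box3.unit.r 1).r 1).r 0) (selB2 1 (selB2 0 (selB2 0 (selB2 0 C0 3618514004013830926707070530577888700831909627458760509721609714565822545919) 21347402099717486932434618047994444927491) 2504937316658098290835292410841759) 14305486128361880158208) :=
  Ok2.run hw hf4 ⟨319,19,19,13,13⟩ 58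
    (.chk false 0)
    (by decide +kernel)

theorem p0_4_73 : Ok2 par f4 ((Box3.unit.r 1).r 1) (selB2 1 (selB2 0 (selB2 0 C0 3618514004013830926707070530577888700831909627458760509721609714565822545919) 21347402099717486932434618047994444927491) 2504937316658098290835292410841759) :=
  Ok2.run hw hf4 ⟨290,19,19,13,13⟩ 58
    (.chk false 2048)
    (by decide +kernel)

theorem p0_4_74 : Ok2 par f4 (Box3.unit.r 1) (selB2 1 (selB2 0 C0 3618514004013830926707070530577888700831909627458760509721609714565822545919) 21347402099717486932434618047994444927491) :=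
  Ok2.run hw hf4 ⟨268,19,19,13,13⟩ 58
    (.chk false 2048)
    (by decide +kernel)

theorem p0_5_0 : Ok2 par f5 Box3.unit (selB2 1 (selB2 0 (selB2 0 C0 85070591730234615865843651857942052863) 9223372036854775807) 2147483647) :=
  Ok2.run hw hf5 ⟨242,19,19,16,13⟩ 58
    (.chk false 0)
    (by decide +kernel)

theorem p0_5_1 : Ok2 par f5 Box3.unit (selB2 0 (selB2 0 (selB2 0 C0 85070591730234615865843651857942052863) 9223372036854775807) 2147483647) :=
  Ok2.run hw hf5 ⟨242,19,19,16,13⟩ 58
    (.chk false 0)
    (by decide +kernel)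

theorem p0_5_2 : Ok2 par f5 Box3.unit (selB2 1 (selB2 1 (selB2 0 C0 85070591730234615865843651857942052863) 9223372036854775807) 2147483647) :=
  Ok2.run hw hf5 ⟨242,19,19,16,13⟩ 58
    (.chk false 0)
    (by decide +kernel)

theorem p0_5_3 : Ok2 par f5 Box3.unit (selB2 0 (selB2 1 (selB2 0 C0 85070591730234615865843651857942052863) 9223372036854775807) 2147483647) :=
  Ok2.run hw hf5 ⟨242,19,19,16,13⟩ 58
    (.chk false 0)
    (by decide +kernel)

theorem p0_5_4 : Ok2 par f5 Box3.unit (selB2 1 (selB2 0 (selB2 1 C0 85070591730234615865843651857942052863) 9223372036854775807) 2147483647) :=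
  Ok2.run hw hf5 ⟨242,19,19,16,13⟩ 58
    (.chk false 2048)
    (by decide +kernel)

theorem p0_5_5 : Ok2 par f5 Box3.unit (selB2 0 (selB2 0 (selB2 1 C0 85070591730234615865843651857942052863) 9223372036854775807) 2147483647) :=
  Ok2.run hw hf5 ⟨242,19,19,16,13⟩ 58
    (.chk false 0)
    (by decide +kernel)

theorem p0_5_6 : Ok2 par f5 Box3.unit (selB2 1 (selB2 1 (selB2 1 C0 85070591730234615865843651857942052863) 9223372036854775807) 2147483647) :=
  Ok2.run hw hf5 ⟨242,19,19,16,13⟩ 58
    (.chk false 512)
    (by decide +kernel)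

theorem p0_5_7 : Ok2 par f5 Box3.unit (selB2 0 (selB2 1 (selB2 1 C0 85070591730234615865843651857942052863) 9223372036854775807) 2147483647) :=
  Ok2.run hw hf5 ⟨242,19,19,16,13⟩ 58
    (.chk false 2048)
    (by decide +kernel)

theorem p0_6_0 : Ok2 par f6 Box3.unit (selB2 1 (selB2 0 (selB2 1 C0 3618538160418519870150674939444462459752751155532207553761208540124615278591) 2535301200456458802993406410751) 2251799813685247) :=
  Ok2.run hw hf6 ⟨242,19,19,16,13⟩ 58
    (.chk false 0)
    (by decide +kernel)

theorem p0_6_1 : Ok2 par f6 Box3.unit (selB2 0 (selB2 0 (selB2 1 C0 3618538160418519870150674939444462459752751155532207553761208540124615278591) 2535301200456458802993406410751) 2251799813685247) :=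
  Ok2.run hw hf6 ⟨242,19,19,16,13⟩ 58
    (.chk false 0)
    (by decide +kernel)

theorem p0_6_2 : Ok2 par f6 Box3.unit (selB2 1 (selB2 1 (selB2 1 C0 3618538160418519870150674939444462459752751155532207553761208540124615278591) 2535301200456458802993406410751) 1125899906842623) :=
  Ok2.run hw hf6 ⟨242,19,19,16,13⟩ 58
    (.chk false 2048)
    (by decide +kernel)

theorem p0_6_3 : Ok2 par f6 Box3.unit (selB2 0 (selB2 1 (selB2 1 C0 3618538160418519870150674939444462459752751155532207553761208540124615278591) 2535301200456458802993406410751) 1125899906842623) :=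
  Ok2.run hw hf6 ⟨242,19,19,16,13⟩ 58
    (.chk false 2048)
    (by decide +kernel)

theorem p0_6_4 : Ok2 par f6 (((Box3.unit.l 0).r 1).l 2) (selB2 0 (selB2 0 C0 3618538160418519870150674939444462459752751155532207553761208540124615278591) 562947805937431) :=
  Ok2.run hw hf6 ⟨343,19,19,16,13⟩ 58
    (.part 7 (.chk false 0) (.split 0 (.chk false 0) (.chk false 0)))
    (by decide +kernel)

theorem p0_6_5 : Ok2 par f6 (((Box3.unit.l 0).r 1).r 2) (selB2 0 (selB2 0 C0 3618538160418519870150674939444462459752751155532207553761208540124615278591) 562947805937431) :=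
  Ok2.run hw hf6 ⟨374,19,19,16,13⟩ 58
    (.split 0 (.chk false 0) (.part 27 (.chk false 0) (.split 2 (.chk false 0) (.split 1 (.chk false 0) (.chk false 0)))))
    (by decide +kernel)

theorem p0_6_6 : Ok2 par f6 ((Box3.unit.l 0).l 1) (selB2 0 (selB2 0 C0 3618538160418519870150674939444462459752751155532207553761208540124615278591) 562947805937431) :=
  Ok2.run hw hf6 ⟨299,19,19,16,13⟩ 58
    (.chk false 0)
    (by decide +kernel)

theorem p0_6_7 : Ok2 par f6 (Box3.unit.l 0) (selB2 1 (selB2 0 C0 3618538160418519870150674939444462459752751155532207553761208540124615278591) 562947805937431) :=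
  Ok2.run hw hf6 ⟨270,19,19,16,13⟩ 58
    (.chk false 0)
    (by decide +kernel)

theorem p0_6_8 : Ok2 par f6 ((((((((Box3.unit.r 0).r 1).r 0).r 2).r 1).l 0).r 2).l 1) (selB2 0 (selB2 0 (selB2 0 (selB2 0 (selB2 0 (selB2 0 C0 3618538160418519870150674939444462459752751155532207553761208540124615278591) 35973779944441) 32768) 261879) 2) 1) :=
  Ok2.run hw hf6 ⟨414,19,19,16,13⟩ 58
    (.chk false 0)
    (by decide +kernel)

theorem p0_6_9 : Ok2 par f6 ((((((((Box3.unit.r 0).r 1).r 0).r 2).r 1).l 0).r 2).r 1) (selB2 0 (selB2 0 (selB2 0 (selB2 0 (selB2 0 (selB2 0 C0 3618538160418519870150674939444462459752751155532207553761208540124615278591) 35973779944441) 32768) 261879) 2) 1) :=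
  Ok2.run hw hf6 ⟨489,19,19,16,13⟩ 58
    (.split 0 (.split 2 (.chk false 0) (.split 1 (.chk false 0) (.split 0 (.chk false 0) (.chk false 0)))) (.chk false 0))
    (by decide +kernel)

theorem p0_6_10 : Ok2 par f6 (((((((Box3.unit.r 0).r 1).r 0).r 2).r 1).l 0).l 2) (selB2 0 (selB2 0 (selB2 0 (selB2 0 (selB2 0 (selB2 0 C0 3618538160418519870150674939444462459752751155532207553761208540124615278591) 35973779944441) 32768) 261879) 2) 1) :=
  Ok2.run hw hf6 ⟨393,19,19,16,13⟩ 58
    (.chk false 0)
    (by decide +kernel)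

theorem p0_6_11 : Ok2 par f6 ((((((Box3.unit.r 0).r 1).r 0).r 2).r 1).l 0) (selB2 1 (selB2 0 (selB2 0 (selB2 0 (selB2 0 (selB2 0 C0 3618538160418519870150674939444462459752751155532207553761208540124615278591) 35973779944441) 32768) 261879) 2) 1) :=
  Ok2.run hw hf6 ⟨381,19,19,16,13⟩ 58
    (.chk false 0)
    (by decide +kernel)

theorem p0_6_12 : Ok2 par f6 ((((((Box3.unit.r 0).r 1).r 0).r 2).r 1).r 0) (selB2 0 (selB2 0 (selB2 0 (selB2 0 (selB2 0 C0 3618538160418519870150674939444462459752751155532207553761208540124615278591) 35973779944441) 32768) 261879) 2) :=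
  Ok2.run hw hf6 ⟨384,19,19,16,13⟩ 58
    (.chk false 0)
    (by decide +kernel)

theorem p0_6_13 : Ok2 par f6 (((((Box3.unit.r 0).r 1).r 0).r 2).l 1) (selB2 0 (selB2 0 (selB2 0 (selB2 0 (selB2 0 C0 3618538160418519870150674939444462459752751155532207553761208540124615278591) 35973779944441) 32768) 261879) 2) :=
  Ok2.run hw hf6 ⟨356,19,19,16,13⟩ 58
    (.chk false 0)
    (by decide +kernel)

theorem p0_6_14 : Ok2 par f6 ((((Box3.unit.r 0).r 1).r 0).r 2) (selB2 1 (selB2 0 (selB2 0 (selB2 0 (selB2 0 C0 3618538160418519870150674939444462459752751155532207553761208540124615278591) 35973779944441) 32768) 261879) 2) :=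
  Ok2.run hw hf6 ⟨343,19,19,16,13⟩ 58
    (.chk false 0)
    (by decide +kernel)

theorem p0_6_15 : Ok2 par f6 ((((Box3.unit.r 0).r 1).r 0).l 2) (selB2 0 (selB2 0 (selB2 0 (selB2 0 C0 3618538160418519870150674939444462459752751155532207553761208540124615278591) 35973779944441) 32768) 261879) :=
  Ok2.run hw hf6 ⟨384,19,19,16,13⟩ 58
    (.part 1 (.chk false 0) (.split 1 (.chk false 0) (.split 0 (.chk false 0) (.chk false 0))))
    (by decide +kernel)

theorem p0_6_16 : Ok2 par f6 (((Box3.unit.r 0).r 1).r 0) (selB2 1 (selB2 0 (selB2 0 (selB2 0 C0 3618538160418519870150674939444462459752751155532207553761208540124615278591) 35973779944441) 32768) 261879) :=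
  Ok2.run hw hf6 ⟨321,19,19,16,13⟩ 58
    (.chk false 0)
    (by decide +kernel)

theorem p0_6_17 : Ok2 par f6 (((Box3.unit.r 0).r 1).l 0) (selB2 0 (selB2 0 (selB2 0 C0 3618538160418519870150674939444462459752751155532207553761208540124615278591) 35973779944441) 32768) :=
  Ok2.run hw hf6 ⟨354,19,19,16,13⟩ 58
    (.part 522239 (.chk false 0) (.split 1 (.chk false 0) (.split 0 (.chk false 0) (.chk false 0))))
    (by decide +kernel)

theorem p0_6_18 : Ok2 par f6 ((Box3.unit.r 0).r 1) (selB2 1 (selB2 0 (selB2 0 C0 3618538160418519870150674939444462459752751155532207553761208540124615278591) 35973779944441) 32768) :=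
  Ok2.run hw hf6 ⟨299,19,19,16,13⟩ 58
    (.chk false 0)
    (by decide +kernel)

theorem p0_6_19 : Ok2 par f6 ((Box3.unit.r 0).l 1) (selB2 0 (selB2 0 C0 3618538160418519870150674939444462459752751155532207553761208540124615278591) 35973779944441) :=
  Ok2.run hw hf6 ⟨299,19,19,16,13⟩ 58
    (.chk false 0)
    (by decide +kernel)

theorem p0_6_20 : Ok2 par f6 (Box3.unit.r 0) (selB2 1 (selB2 0 C0 3618538160418519870150674939444462459752751155532207553761208540124615278591) 35973779944441) :=
  Ok2.run hw hf6 ⟨270,19,19,16,13⟩ 58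
    (.chk false 0)
    (by decide +kernel)

theorem p0_7_0 : Ok2 par f7 Box3.unit (selB2 1 (selB2 0 (selB2 1 C0 7237005577332205908352230046757515826529946200088227907872632338259770343423) 618970019642690137449562111) 17592186044415) :=
  Ok2.run hw hf7 ⟨240,19,19,13,13⟩ 58
    (.chk false 0)
    (by decide +kernel)


end Crest.Agent.R163.P5
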