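import Crest.Agent.R163.Q3.D.P5.S0
import Crest.Agent.R163.Q3.D.P5.H

set_option autoImplicit false
set_option maxRecDepth 100000
set_option linter.all false
set_option Elab.async false

namespace Crest.Agent.R163.P5

theorem p0_10_5 : Ok2 par f10 ((((Box3.unit.l 0).l 1).l 0).r 1) (selB2 0 (selB2 0 (selB2 0 (selB2 0 (selB2 0 (selB2 0 (selB2 0 (selB2 0 C0 7237005577332262213973186563042994240829373717069967707147316614149115150335) 1614371356667) 16384) 1234) 11329) 7) 24) 5) :=
  Ok2.run hw hf10 ⟨423,25,25,13,13⟩ 58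
    (.part 1 (.chk true 0) (.split 0 (.chk false 0) (.chk false 0)))
    (by decide +kernel)

theorem p0_10_6 : Ok2 par f10 (((Box3.unit.l 0).l 1).l 0) (selB2 1 (selB2 0 (selB2 0 (selB2 0 (selB2 0 (selB2 0 (selB2 0 (selB2 0 C0 7237005577332262213973186563042994240829373717069967707147316614149115150335) 1614371356667) 16384) 1234) 11329) 7) 24) 5) :=
  Ok2.run hw hf10 ⟨404,25,25,13,13⟩ 58
    (.chk true 0)
    (by decide +kernel)

theorem p0_10_7 : Ok2 par f10 (((Box3.unit.l 0).l 1).l 0) (selB2 1 (selB2 0 (selB2 0 (selB2 0 (selB2 0 (selB2 0 (selB2 0 C0 7237005577332262213973186563042994240829373717069967707147316614149115150335) 1614371356667) 16384) 1234) 11329) 7) 24) :=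
  Ok2.run hw hf10 ⟨337,19,19,13,13⟩ 58
    (.chk false 0)
    (by decide +kernel)

theorem p0_10_8 : Ok2 par f10 (((Box3.unit.l 0).l 1).r 0) (selB2 1 (selB2 0 (selB2 0 (selB2 0 (selB2 0 (selB2 0 (selB2 0 (selB2 0 C0 7237005577332262213973186563042994240829373717069967707147316614149115150335) 1614371356667) 16384) 1234) 11329) 7) 56) 5) :=
  Ok2.run hw hf10 ⟨395,25,25,13,13⟩ 58
    (.chk true 0)
    (by decide +kernel)

theorem p0_10_9 : Ok2 par f10 (((Box3.unit.l 0).l 1).r 0) (selB2 0 (selB2 0 (selB2 0 (selB2 0 (selB2 0 (selB2 0 (selB2 0 (selB2 0 C0 7237005577332262213973186563042994240829373717069967707147316614149115150335) 1614371356667) 16384) 1234) 11329) 7) 56) 5) :=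
  Ok2.run hw hf10 ⟨472,25,25,13,13⟩ 58
    (.split 1 (.split 1 (.chk true 0) (.split 0 (.chk true 0) (.chk true 0))) (.chk true 0))
    (by decide +kernel)

theorem p0_10_10 : Ok2 par f10 (((Box3.unit.l 0).l 1).r 0) (selB2 1 (selB2 0 (selB2 0 (selB2 0 (selB2 0 (selB2 0 (selB2 0 C0 7237005577332262213973186563042994240829373717069967707147316614149115150335) 1614371356667) 16384) 1234) 11329) 7) 56) :=
  Ok2.run hw hf10 ⟨328,19,19,13,13⟩ 58
    (.chk false 0)
    (by decide +kernel)

theorem p0_10_11 : Ok2 par f10 ((Box3.unit.l 0).l 1) (selB2 1 (selB2 0 (selB2 0 (selB2 0 (selB2 0 (selB2 0 C0 7237005577332262213973186563042994240829373717069967707147316614149115150335) 1614371356667) 16384) 1234) 11329) 7) :=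
  Ok2.run hw hf10 ⟨376,25,25,13,13⟩ 58
    (.chk true 0)
    (by decide +kernel)

theorem p0_10_12 : Ok2 par f10 ((Box3.unit.l 0).l 1) (selB2 1 (selB2 0 (selB2 0 (selB2 0 (selB2 0 C0 7237005577332262213973186563042994240829373717069967707147316614149115150335) 1614371356667) 16384) 1234) 11329) :=
  Ok2.run hw hf10 ⟨315,19,19,13,13⟩ 58
    (.chk false 512)
    (by decide +kernel)

theorem p0_10_13 : Ok2 par f10 (((Box3.unit.l 0).r 1).l 0) (selB2 0 (selB2 0 (selB2 0 (selB2 0 (selB2 0 (selB2 0 C0 7237005577332262213973186563042994240829373717069967707147316614149115150335) 1614371356667) 16384) 1234) 16192) 16) :=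
  Ok2.run hw hf10 ⟨430,25,25,13,13⟩ 58
    (.part 1 (.chk false 512) (.part 15 (.chk true 0) (.split 0 (.chk true 0) (.chk true 0))))
    (by decide +kernel)

theorem p0_10_14 : Ok2 par f10 (((Box3.unit.l 0).r 1).r 0) (selB2 0 (selB2 0 (selB2 0 (selB2 0 (selB2 0 (selB2 0 C0 7237005577332262213973186563042994240829373717069967707147316614149115150335) 1614371356667) 16384) 1234) 16192) 16) :=
  Ok2.run hw hf10 ⟨423,25,25,13,13⟩ 58
    (.part 57 (.chk true 0) (.split 1 (.chk true 0) (.chk true 0)))
    (by decide +kernel)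

theorem p0_10_15 : Ok2 par f10 ((Box3.unit.l 0).r 1) (selB2 1 (selB2 0 (selB2 0 (selB2 0 (selB2 0 (selB2 0 C0 7237005577332262213973186563042994240829373717069967707147316614149115150335) 1614371356667) 16384) 1234) 16192) 16) :=
  Ok2.run hw hf10 ⟨376,25,25,13,13⟩ 58
    (.chk true 0)
    (by decide +kernel)

theorem p0_10_16 : Ok2 par f10 ((Box3.unit.l 0).r 1) (selB2 1 (selB2 0 (selB2 0 (selB2 0 (selB2 0 C0 7237005577332262213973186563042994240829373717069967707147316614149115150335) 1614371356667) 16384) 1234) 16192) :=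
  Ok2.run hw hf10 ⟨315,19,19,13,13⟩ 58
    (.chk false 0)
    (by decide +kernel)

theorem p0_10_17 : Ok2 par f10 (Box3.unit.l 0) (selB2 1 (selB2 0 (selB2 0 (selB2 0 C0 7237005577332262213973186563042994240829373717069967707147316614149115150335) 1614371356667) 16384) 1234) :=
  Ok2.run hw hf10 ⟨342,25,25,13,13⟩ 58
    (.chk true 0)
    (by decide +kernel)

theorem p0_10_18 : Ok2 par f10 (Box3.unit.l 0) (selB2 1 (selB2 0 (selB2 0 C0 7237005577332262213973186563042994240829373717069967707147316614149115150335) 1614371356667) 16384) :=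
  Ok2.run hw hf10 ⟨287,19,19,13,13⟩ 58
    (.chk false 0)
    (by decide +kernel)

theorem p0_10_19 : Ok2 par f10 (((Box3.unit.r 0).l 1).l 1) (selB2 1 (selB2 0 (selB2 0 (selB2 0 (selB2 0 (selB2 0 C0 7237005577332262213973186563042994240829373717069967707147316614149115150335) 1614371356667) 1042432) 3539) 4) 1) :=
  Ok2.run hw hf10 ⟨404,25,25,13,13⟩ 58
    (.chk true 0)
    (by decide +kernel)

theorem p0_10_20 : Ok2 par f10 (((Box3.unit.r 0).l 1).l 1) (selB2 0 (selB2 0 (selB2 0 (selB2 0 (selB2 0 (selB2 0 C0 7237005577332262213973186563042994240829373717069967707147316614149115150335) 1614371356667) 1042432) 3539) 4) 1) :=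
  Ok2.run hw hf10 ⟨449,25,25,13,13⟩ 58
    (.split 0 (.part 1 (.chk true 0) (.split 1 (.chk true 0) (.chk true 0))) (.chk true 0))
    (by decide +kernel)

theorem p0_10_21 : Ok2 par f10 (((Box3.unit.r 0).l 1).r 1) (selB2 1 (selB2 0 (selB2 0 (selB2 0 (selB2 0 (selB2 0 C0 7237005577332262213973186563042994240829373717069967707147316614149115150335) 1614371356667) 1042432) 3539) 4) 4) :=
  Ok2.run hw hf10 ⟨396,25,25,13,13⟩ 58
    (.chk true 0)
    (by decide +kernel)

theorem p0_10_22 : Ok2 par f10 (((Box3.unit.r 0).l 1).r 1) (selB2 0 (selB2 0 (selB2 0 (selB2 0 (selB2 0 (selB2 0 C0 7237005577332262213973186563042994240829373717069967707147316614149115150335) 1614371356667) 1042432) 3539) 4) 4) :=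
  Ok2.run hw hf10 ⟨441,25,25,13,13⟩ 58
    (.split 0 (.part 1 (.chk true 0) (.split 1 (.chk true 0) (.chk true 0))) (.chk true 0))
    (by decide +kernel)

theorem p0_10_23 : Ok2 par f10 ((Box3.unit.r 0).l 1) (selB2 1 (selB2 0 (selB2 0 (selB2 0 (selB2 0 C0 7237005577332262213973186563042994240829373717069967707147316614149115150335) 1614371356667) 1042432) 3539) 4) :=
  Ok2.run hw hf10 ⟨376,25,25,13,13⟩ 58
    (.chk true 0)
    (by decide +kernel)

theorem p0_10_24 : Ok2 par f10 ((Box3.unit.r 0).r 1) (selB2 0 (selB2 0 (selB2 0 (selB2 0 C0 7237005577332262213973186563042994240829373717069967707147316614149115150335) 1614371356667) 1042432) 3539) :=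
  Ok2.run hw hf10 ⟨376,25,25,13,13⟩ 58
    (.chk true 0)
    (by decide +kernel)

theorem p0_10_25 : Ok2 par f10 (Box3.unit.r 0) (selB2 1 (selB2 0 (selB2 0 (selB2 0 C0 7237005577332262213973186563042994240829373717069967707147316614149115150335) 1614371356667) 1042432) 3539) :=
  Ok2.run hw hf10 ⟨342,25,25,13,13⟩ 58
    (.chk true 0)
    (by decide +kernel)

theorem p0_10_26 : Ok2 par f10 (Box3.unit.r 0) (selB2 1 (selB2 0 (selB2 0 C0 7237005577332262213973186563042994240829373717069967707147316614149115150335) 1614371356667) 1042432) :=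
  Ok2.run hw hf10 ⟨287,19,19,13,13⟩ 58
    (.chk false 0)
    (by decide +kernel)

theorem p0_10_27 : Ok2 par f10 Box3.unit (selB2 1 (selB2 0 C0 7237005577332262213973186563042994240829373717069967707147316614149115150335) 1614371356667) :=
  Ok2.run hw hf10 ⟨308,25,25,13,13⟩ 58
    (.chk true 0)
    (by decide +kernel)


end Crest.Agent.R163.P5
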