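import Crest.Agent.R163.Q3.D.P5.P0_0
import Crest.Agent.R163.Q3.D.P5.P0_1
import Crest.Agent.R163.Q3.D.P5.P0_2
import Crest.Agent.R163.Q3.D.P5.P0_3
import Crest.Agent.R163.Q3.D.P5.P0_4
import Crest.Agent.R163.Q3.D.P5.P0_5
import Crest.Agent.R163.Q3.D.P5.P0_6
import Crest.Agent.R163.Q3.D.P5.P0_7

set_option autoImplicit false
set_option maxRecDepth 100000
set_option linter.all false
set_option Elab.async false

namespace Crest.Agent.R163.P5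

theorem o0_10 : Ok2 par f10 Box3.unit C0 :=
  (Ok2.part 7237005577332262213973186563042994240829373717069967707147316614149115150335 (Ok2.part 5070602400912917605986812821503 (Ok2.part 2251799813685247 p0_10_2 p0_10_3) (Ok2.part 2251799813685247 p0_10_0 p0_10_1)) (Ok2.part 1614371356667 p0_10_27 (Ok2.split 0 (Ok2.part 16384 p0_10_18 (Ok2.part 1234 p0_10_17 (Ok2.split 1 (Ok2.part 11329 p0_10_12 (Ok2.part 7 p0_10_11 (Ok2.split 0 (Ok2.part 24 p0_10_7 (Ok2.part 5 p0_10_6 (Ok2.split 1 p0_10_4 p0_10_5))) (Ok2.part 56 p0_10_10 (Ok2.part 5 p0_10_8 p0_10_9))))) (Ok2.part 16192 p0_10_16 (Ok2.part 16 p0_10_15 (Ok2.split 0 p0_10_13 p0_10_14)))))) (Ok2.part 1042432 p0_10_26 (Ok2.part 3539 p0_10_25 (Ok2.split 1 (Ok2.part 4 p0_10_23 (Ok2.split 1 (Ok2.part 1 p0_10_19 p0_10_20) (Ok2.part 4 p0_10_21 p0_10_22))) p0_10_24))))))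
theorem o0_9 : Ok2 par f9 Box3.unit C0 :=
  (Ok2.part 7237005577332262213973186563042994240829374031448631875335091178652884271103 (Ok2.part 5192296858534827628530496329220095 (Ok2.part 72057594037927935 p0_9_2 p0_9_3) (Ok2.part 72057594037927935 p0_9_0 p0_9_1)) (Ok2.part 4191807 p0_9_6 (Ok2.split 0 p0_9_4 p0_9_5)))
theorem o0_8 : Ok2 par f8 Box3.unit C0 :=
  (Ok2.part 7237005577331997546255521072226181096551246937042283311397697333246681939967 (Ok2.part 19342813113834066795298815 (Ok2.part 4398046511103 p0_8_2 p0_8_3) (Ok2.part 4398046511103 p0_8_0 p0_8_1)) (Ok2.part 65524 p0_8_39 (Ok2.split 1 (Ok2.part 1770455085511889387263 (Ok2.part 8589934591 p0_8_4 p0_8_5) p0_8_6) (Ok2.part 590295810359779394576 p0_8_38 (Ok2.split 0 (Ok2.part 104033217362956123647 p0_8_22 (Ok2.split 1 p0_8_21 (Ok2.part 1024 p0_8_20 (Ok2.split 0 p0_8_19 (Ok2.part 15504 p0_8_18 (Ok2.split 2 (Ok2.part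 21 p0_8_10 (Ok2.split 1 p0_8_9 (Ok2.split 0 p0_8_7 p0_8_8))) (Ok2.part 170 p0_8_17 (Ok2.split 1 p0_8_16 (Ok2.part 8 p0_8_15 (Ok2.split 0 (Ok2.part 6 p0_8_13 (Ok2.split 2 p0_8_11 p0_8_12)) p0_8_14)))))))))) (Ok2.part 147572400354148069363 p0_8_37 (Ok2.part 1 p0_8_36 (Ok2.split 1 p0_8_35 (Ok2.part 62914564 p0_8_34 (Ok2.split 0 (Ok2.part 1144921 p0_8_32 (Ok2.split 1 p0_8_31 (Ok2.part 64 p0_8_30 (Ok2.split 2 p0_8_29 (Ok2.part 448 p0_8_28 (Ok2.split 0 p0_8_27 (Ok2.part 103 p0_8_26 (Ok2.split 1 p0_8_25 (Ok2.split 2 p0_8_23 p0_8_24))))))))) p0_8_33))))))))))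
theorem o0_7 : Ok2 par f7 Box3.unit C0 :=
  (Ok2.part 7237005577332205908352230046757515826529946200088227907872632338259770343423 (Ok2.part 618970019642690137449562111 (Ok2.part 17592186044415 p0_7_2 p0_7_3) (Ok2.part 17592186044415 p0_7_0 p0_7_1)) (Ok2.split 0 (Ok2.part 15937986879685052596223 (Ok2.part 68719476735 p0_7_4 p0_7_5) p0_7_6) (Ok2.part 15790557059876443389956 p0_7_22 (Ok2.split 1 (Ok2.part 4642195474408103711 p0_7_18 (Ok2.split 0 p0_7_17 (Ok2.part 137438953472 p0_7_16 (Ok2.split 1 (Ok2.part 51406196716 p0_7_13 (Ok2.split 0 p0_7_12 (Ok2.split 1 (Ok2.part 126709 p0_7_7 p0_7_8) (Ok2.part 130847 p0_7_11 (Ok2.split 0 p0_7_9 p0_7_10))))) (Ok2.part 137438951423 p0_7_14 p0_7_15))))) (Ok2.part 18446744073709546743 (Ok2.part 1073741823 p0_7_19 p0_7_20) p0_7_21)))))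
theorem o0_6 : Ok2 par f6 Box3.unit C0 :=
  (Ok2.part 3618538160418519870150674939444462459752751155532207553761208540124615278591 (Ok2.part 2535301200456458802993406410751 (Ok2.part 1125899906842623 p0_6_2 p0_6_3) (Ok2.part 2251799813685247 p0_6_0 p0_6_1)) (Ok2.split 0 (Ok2.part 562947805937431 p0_6_7 (Ok2.split 1 p0_6_6 (Ok2.split 2 p0_6_4 p0_6_5))) (Ok2.part 35973779944441 p0_6_20 (Ok2.split 1 p0_6_19 (Ok2.part 32768 p0_6_18 (Ok2.split 0 p0_6_17 (Ok2.part 261879 p0_6_16 (Ok2.split 2 p0_6_15 (Ok2.part 2 p0_6_14 (Ok2.split 1 p0_6_13 (Ok2.split 0 (Ok2.part 1 p0_6_11 (Ok2.split 2 p0_6_10 (Ok2.split 1 p0_6_8 p0_6_9))) p0_6_12)))))))))))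
theorem o0_5 : Ok2 par f5 Box3.unit C0 :=
  (Ok2.part 85070591730234615865843651857942052863 (Ok2.part 9223372036854775807 (Ok2.part 2147483647 p0_5_6 p0_5_7) (Ok2.part 2147483647 p0_5_4 p0_5_5)) (Ok2.part 9223372036854775807 (Ok2.part 2147483647 p0_5_2 p0_5_3) (Ok2.part 2147483647 p0_5_0 p0_5_1)))
theorem o0_4 : Ok2 par f4 Box3.unit C0 :=
  (Ok2.part 3618514004013830926707070530577888700831909627458760509721609714565822545919 (Ok2.part 36028797018963967 p0_4_0 p0_4_1) (Ok2.split 1 (Ok2.part 88462781493080354749627725064079313677732 (Ok2.part 72057594037927935 p0_4_2 p0_4_3) (Ok2.split 0 (Ok2.part 86015 p0_4_17 (Ok2.split 1 (Ok2.part 15986 p0_4_6 (Ok2.split 2 p0_4_4 p0_4_5)) (Ok2.part 1039 p0_4_16 (Ok2.split 1 (Ok2.part 460 p0_4_9 (Ok2.split 2 p0_4_7 p0_4_8)) (Ok2.part 35 p0_4_15 (Ok2.split 2 (Ok2.part 7 p0_4_10 p0_4_11) (Ok2.part 56 p0_4_14 (Ok2.split 0 p0_4_12 p0_4_13))))))))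 (Ok2.part 268349952 p0_4_26 (Ok2.split 1 (Ok2.part 7895 p0_4_21 (Ok2.split 2 p0_4_20 (Ok2.part 2 p0_4_18 p0_4_19))) (Ok2.part 6527 p0_4_25 (Ok2.split 2 (Ok2.split 0 p0_4_22 p0_4_23) p0_4_24)))))) (Ok2.part 21347402099717486932434618047994444927491 p0_4_74 (Ok2.split 1 (Ok2.part 2437194304769139826526844776 (Ok2.part 1099511627775 p0_4_27 p0_4_28) (Ok2.split 0 (Ok2.part 146796351 p0_4_37 (Ok2.split 1 (Ok2.part 45 p0_4_31 (Ok2.split 0 p0_4_29 p0_4_30)) (Ok2.part 531 p0_4_36 (Ok2.split 0 p0_4_35 (Ok2.part 45 p0_4_34 (Ok2.split 1 p0_4_32 p0_4_33)))))) (Ok2.part 792730304 p0_4_42 (Ok2.split 1 (Ok2.part 522239 p0_4_38 p0_4_39) (Ok2.part 928111 p0_4_40 p0_4_41))))) (Ok2.part 2504937316658098290835292410841759 p0_4_73 (Ok2.split 0 (Ok2.part 16576849508425321676799 (Ok2.part 2147483647 p0_4_43 p0_4_44) (Ok2.split 1 (Ok2.part 671 p0_4_45 p0_4_46) (Ok2.part 2037 p0_4_49 (Ok2.split 0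 p0_4_47 p0_4_48)))) (Ok2.part 14305486128361880158208 p0_4_72 (Ok2.split 1 (Ok2.part 3026415651058089973 (Ok2.part 134217727 p0_4_50 p0_4_51) (Ok2.split 0 (Ok2.part 47 p0_4_54 (Ok2.split 1 p0_4_52 p0_4_53)) (Ok2.part 984 p0_4_55 p0_4_56))) (Ok2.part 36642420353686193081 p0_4_71 (Ok2.split 0 (Ok2.part 1742733311 p0_4_59 (Ok2.split 1 p0_4_57 p0_4_58)) (Ok2.part 16525557760 p0_4_70 (Ok2.split 1 (Ok2.part 50331646 p0_4_60 p0_4_61) (Ok2.part 133693385 p0_4_69 (Ok2.split 0 p0_4_68 (Ok2.split 0 p0_4_67 (Ok2.split 1 (Ok2.part 30 p0_4_65 (Ok2.split 0 p0_4_64 (Ok2.split 2 p0_4_62 p0_4_63))) p0_4_66))))))))))))))))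
theorem o0_3 : Ok2 par f3 Box3.unit C0 :=
  (Ok2.part 5923061460449794865967038894116487550729910592144190631086539375865944342527 (Ok2.part 166153499473114484112975882535043071 (Ok2.part 288230376151711743 (Ok2.part 536870911 p0_3_6 p0_3_7) (Ok2.part 536870911 p0_3_4 p0_3_5)) (Ok2.part 576460752303423487 (Ok2.part 536870911 p0_3_2 p0_3_3) (Ok2.part 536870911 p0_3_0 p0_3_1))) (Ok2.split 1 (Ok2.part 124928 p0_3_17 (Ok2.split 0 p0_3_16 (Ok2.part 79 p0_3_15 (Ok2.split 1 (Ok2.part 24 p0_3_10 (Ok2.split 0 p0_3_8 p0_3_9)) (Ok2.part 99 p0_3_14 (Ok2.split 2 p0_3_13 (Ok2.split 0 p0_3_11 p0_3_12))))))) p0_3_18))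
theorem o0_2 : Ok2 par f2 Box3.unit C0 :=
  (Ok2.part 7237005577332262213973186563042994240829374041602535176908235274580247183359 (Ok2.part 42535295865117307932921825928971026431 (Ok2.part 4611686018427387903 (Ok2.part 2147483647 p0_2_6 p0_2_7) (Ok2.part 2147483647 p0_2_4 p0_2_5)) (Ok2.part 9223372036854775807 (Ok2.part 2147483647 p0_2_2 p0_2_3) (Ok2.part 2147483647 p0_2_0 p0_2_1))) p0_2_8)
theorem o0_1 : Ok2 par f1 Box3.unit C0 :=
  (Ok2.part 85070591730234615865843651857942052863 (Ok2.part 9223372036854775807 (Ok2.part 2147483647 p0_1_6 p0_1_7) (Ok2.part 2147483647 p0_1_4 p0_1_5)) (Ok2.part 9223372036854775807 (Ok2.part 2147483647 p0_1_2 p0_1_3) (Ok2.part 2147483647 p0_1_0 p0_1_1)))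
theorem o0_0 : Ok2 par f0 Box3.unit C0 :=
  (Ok2.part 7237005401878783676674153913279690400624730227603909829187189645470272061439 (Ok2.part 40564819207303340847894502572031 (Ok2.part 4503599627370495 p0_0_2 p0_0_3) (Ok2.part 4503599627370495 p0_0_0 p0_0_1)) (Ok2.split 0 (Ok2.part 4393214667552 p0_0_6 (Ok2.split 0 p0_0_4 p0_0_5)) p0_0_7))

theorem pt0 : PtAll2 par C0 :=
  PtAll2.of_okD hw (OkD2.cover [f0.dom,f1.dom,f2.dom,f3.dom,f4.dom,f5.dom,f6.dom,f7.dom,f8.dom,f9.dom,f10.dom]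
    (.split 0 (.split 0 (.leaf 0) (.split 1 (.leaf 1) (.leaf 2))) (.split 1 (.split 0 (.leaf 3) (.leaf 4)) (.split 0 (.split 1 (.leaf 5) (.leaf 6)) (.split 1 (.leaf 7) (.split 0 (.leaf 8) (.split 1 (.leaf 9) (.leaf 10)))))))
    (by decide +kernel)
    (List.forall_mem_cons.2 ⟨OkD2.of_ok o0_0, (List.forall_mem_cons.2 ⟨OkD2.of_ok o0_1, (List.forall_mem_cons.2 ⟨OkD2.of_ok o0_2, (List.forall_mem_cons.2 ⟨OkD2.of_ok o0_3, (List.forall_mem_cons.2 ⟨OkD2.of_ok o0_4, (List.forall_mem_cons.2 ⟨OkD2.of_ok o0_5, (List.forall_mem_cons.2 ⟨OkD2.of_ok o0_6, (List.forall_mem_cons.2 ⟨OkD2.of_ok o0_7, (List.forall_mem_cons.2 ⟨OkD2.of_ok o0_8, (List.forall_mem_cons.2 ⟨OkD2.of_ok o0_9, (List.forall_mem_cons.2 ⟨OkD2.of_ok o0_10, (fun _ h => nomatch h)⟩)⟩)⟩)⟩)⟩)⟩)⟩)⟩)⟩)⟩)⟩))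

end Crest.Agent.R163.P5
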